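import Crest.Agent.N233.PS.Cd
import Crest.Agent.N233.Hyp.Ra

/-!
# Row 233, block PS (helper98): the Przytycki–Świątkowski subdivision as a graph

`X : Set V → Prop` is a simplicial complex of dimension at most three (`Cx X`; e.g. the cliques
of a graph, `cx_clique`).  `ps X` is the one-skeleton of its subdivision `X*`: it has no squares,
cliques have at most four vertices, and `A* = {a | supp a ⊆ A}` is 2-convex for every `A`.
-/

set_option autoImplicit false

open scoped goldenRatio
open Finsupp Set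

namespace Crest.Agent.N233.PS

variable {V U W : Type*}

/-- `X` is the set of faces of a simplicial complex of dimension at most three -/
structure Cx (X : Set V → Prop) : Prop where
  down : ∀ {s t : Set V}, s ⊆ t → X t → X s
  dim : ∀ {s : Set V}, X s → ∃ p : V → Fin 4, InjOn p s

theorem Cx.finite {X : Set V → Prop} (hX : Cx X) {s : Set V} (hs : X s) : s.Finite := by
  obtain ⟨p, hp⟩ := hX.dim hs
  exact Set.Finite.of_finite_image (toFinite _) hp

theorem cx_of_card {X : Set V → Prop} (down : ∀ {s t : Set V}, s ⊆ t → X t → X s)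
    (h : ∀ σ : Finset V, X σ → σ.card ≤ 4) : Cx X := by
  refine ⟨down, fun {s} hs => ?_⟩
  have hf : s.Finite := by
    by_contra hf
    obtain ⟨t, ht, hc⟩ := Set.Infinite.exists_subset_card_eq hf 5
    have := h t (down ht hs)
    omega
  have := exists_injOn (h hf.toFinset (by simpa using hs))
  simpa using this

theorem cx_clique {V : Type} {G : SimpleGraph V} (h : Hyp.ClB G 4) : Cx G.IsClique :=
  cx_of_card (fun h1 h2 => h2.subset h1) h


/-! ### local facts -/

section loc

variable {K : Set V} {p : V → Fin 4} {a b c d : V →₀ Fin 8}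

theorem loc_le (hp : InjOn p K) (ha : ↑a.support ⊆ K) (hb : ↑b.support ⊆ K) (va : Vx a)
    (vb : Vx b) (h : a ≠ b) : RR a b ≤ φ ^ 5 := by
  rw [← RR_map hp ha hb]
  exact blk_le ((vx_map (hp.mono ha)).2 va) ((vx_map (hp.mono hb)).2 vb)
    fun e => h (map_inj hp ha hb e)

theorem loc_nest (hp : InjOn p K) (ha : ↑a.support ⊆ K) (hb : ↑b.support ⊆ K) (va : Vx a)
    (vb : Vx b) (h : Ad a b) :
    (↑a.support : Set V) ⊆ b.support ∨ (↑b.support : Set V) ⊆ a.support := by
  refine (blk_nest ((vx_map (hp.mono ha)).2 va) ((vx_map (hp.mono hb)).2 vb)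
    ((ad_map hp ha hb).2 h)).imp (fun h => ?_) fun h => ?_
  · exact supp_sub_of_map hp ha hb (by rwa [supp_map (hp.mono hb)] at h)
  · exact supp_sub_of_map hp hb ha (by rwa [supp_map (hp.mono ha)] at h)

theorem loc_C (hp : InjOn p K) (ha : ↑a.support ⊆ K) (hb : ↑b.support ⊆ K)
    (hd : ↑d.support ⊆ K) (va : Vx a) (vb : Vx b) (vd : Vx d) (hab : Ad a b) (had : Ad a d)
    (hbd : ¬ Ad b d) (hne : b ≠ d) :
    (↑a.support : Set V) ⊆ ↑b.support ∪ ↑d.support ∧
      ∀ c, ↑c.support ⊆ K → Vx c → Ad b c → Ad d c → c ≠ a → Ad a c := by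
  have h := blk_C ((vx_map (hp.mono ha)).2 va) ((vx_map (hp.mono hb)).2 vb)
    ((vx_map (hp.mono hd)).2 vd) ((ad_map hp ha hb).2 hab) ((ad_map hp ha hd).2 had)
    (by rwa [ad_map hp hb hd]) fun e => hne (map_inj hp hb hd e)
  refine ⟨supp_sub_of_map hp ha (union_subset hb hd) ?_, fun c hc vc h1 h2 h3 => ?_⟩
  · rw [image_union, ← supp_map (hp.mono hb), ← supp_map (hp.mono hd)]
    exact h.1
  · rw [← ad_map hp ha hc]
    exact h.2 _ ((vx_map (hp.mono hc)).2 vc) ((ad_map hp hb hc).2 h1) ((ad_map hp hd hc).2 h2)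
      fun e => h3 (map_inj hp hc ha e)

end loc

/-! ### the linear forms -/

/-- the position of a vertex in the cone over the complex -/
noncomputable def pos (a : V →₀ Fin 8) : V → ℝ := fun v => wt (a v)

/-- the supporting linear form of the vertex `a` over the face `K` -/
noncomputable def el (K : Finset V) (a : V →₀ Fin 8) : (V → ℝ) →ₗ[ℝ] ℝ where
  toFun y := ∑ v ∈ K, (φ ^ 4 * wt (a v) - (φ * sz a + 1)) * y v
  map_add' y z := by simp [mul_add, Finset.sum_add_distrib]
  map_smul' r y := by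
    simp only [Pi.smul_apply, smul_eq_mul, RingHom.id_apply, Finset.mul_sum]
    exact Finset.sum_congr rfl fun _ _ => by ring

/-- the height of `a` -/
noncomputable def ht (a : V →₀ Fin 8) : ℝ := φ - 1 + sz a

theorem ht_pos (a : V →₀ Fin 8) : 0 < ht a := by
  have := Real.one_lt_goldenRatio
  have := sz_nonneg a
  unfold ht
  linarith

theorem el_pos {K : Finset V} {a b : V →₀ Fin 8} (ha : a.support ⊆ K) (hb : b.support ⊆ K) :
    el K a (pos b) = ht a + (RR a b - φ ^ 5) := by
  have h : el K a (pos b) = φ ^ 4 * dt a b - (φ * sz a + 1) * sz b := by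
    rw [dt_eq b ha, sz_eq hb, Finset.mul_sum, Finset.mul_sum, ← Finset.sum_sub_distrib]
    exact Finset.sum_congr rfl fun _ _ => by simp only [pos]; ring
  rw [h, ht, RR, phi5, Real.goldenRatio_sq]
  generalize φ = f
  ring

theorem Vx.RR_sub {a : V →₀ Fin 8} (h : Vx a) : RR a a - φ ^ 5 = φ + 1 := by
  rw [h, phi4, phi5]
  ring

theorem Ad.RR_sub {a b : V →₀ Fin 8} (h : Ad a b) : RR a b - φ ^ 5 = 0 := by
  rw [h, sub_self]

/-- the value of `el` on a combination of the vertices of a simplex -/
theorem el_comb {ι : Type*} [Fintype ι] {K : Finset V} {a : ι → V →₀ Fin 8}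
    (hK : ∀ i, (a i).support ⊆ K) (va : ∀ i, Vx (a i)) (had : ∀ i j, i ≠ j → Ad (a i) (a j))
    (c : ι → ℝ) (i : ι) :
    el K (a i) (∑ j, c j • pos (a j)) = ht (a i) * ∑ j, c j + (φ + 1) * c i := by
  classical
  rw [map_sum, Finset.mul_sum]
  have : ∀ j, el K (a i) (c j • pos (a j)) =
      ht (a i) * c j + if j = i then (φ + 1) * c i else 0 := by
    intro j
    rw [map_smul, el_pos (hK i) (hK j), smul_eq_mul]
    split_ifs with h
    · rw [h, (va i).RR_sub]
      ring
    · rw [(had i j (Ne.symm h)).RR_sub]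
      ring
  simp [this, Finset.sum_add_distrib]

theorem indep {ι : Type*} [Fintype ι] {a : ι → V →₀ Fin 8} (va : ∀ i, Vx (a i))
    (had : ∀ i j, i ≠ j → Ad (a i) (a j)) : LinearIndependent ℝ fun i => pos (a i) := by
  classical
  rw [Fintype.linearIndependent_iff]
  intro c hc
  have hK : ∀ i, (a i).support ⊆ Finset.univ.biUnion fun i => (a i).support :=
    fun i => Finset.subset_biUnion_of_mem (fun i => (a i).support) (Finset.mem_univ i)
  have h1 : ∀ i, ht (a i) * ∑ j, c j + (φ + 1) * c i = 0 := fun i => by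
    rw [← el_comb hK va had c i, hc, map_zero]
  have h2 : (∑ i, ht (a i) + (φ + 1)) * ∑ j, c j = 0 := by
    have := Finset.sum_eq_zero (s := Finset.univ) fun i _ => h1 i
    rw [Finset.sum_add_distrib, ← Finset.sum_mul, ← Finset.mul_sum] at this
    rw [add_mul]
    exact this
  have h3 : 0 ≤ ∑ i, ht (a i) := Finset.sum_nonneg fun i _ => (ht_pos _).le
  have h4 := Real.goldenRatio_pos
  have h5 : ∑ j, c j = 0 := (mul_eq_zero.1 h2).resolve_left (by linarith)
  intro i
  have := h1 i
  rw [h5, mul_zero, zero_add] at this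
  exact (mul_eq_zero.1 this).resolve_left (by linarith)

/-! ### the graph -/

/-- the vertices of the subdivision -/
@[ext] structure PV (X : Set V → Prop) where
  val : V →₀ Fin 8
  property : X val.support ∧ Vx val

/-- the carrier of a vertex of the subdivision: the vertex set of the face containing it -/
def car {X : Set V → Prop} (a : PV X) : Set V := a.1.support

/-- the one-skeleton of the subdivision -/
def ps (X : Set V → Prop) : SimpleGraph (PV X) where
  Adj a b := X (car a ∪ car b) ∧ Ad a.1 b.1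
  symm := ⟨fun _ _ h => ⟨by rw [union_comm]; exact h.1, h.2.symm⟩⟩
  loopless := ⟨fun a h => a.2.2.not_ad h.2⟩

instance {X : Set V → Prop} [Finite V] : Finite (PV X) := by
  classical
  have := Fintype.ofFinite V
  exact Finite.of_injective (fun a : PV X => a.1) fun _ _ => PV.ext

variable {X : Set V → Prop}

theorem car_face (a : PV X) : X (car a) := a.2.1

theorem car_nonempty (a : PV X) : (car a).Nonempty :=
  Finset.coe_nonempty.2 (support_nonempty_iff.2 a.2.2.ne_zero)

theorem mem_car {a : PV X} {v : V} : v ∈ car a ↔ a.1 v ≠ 0 := by simp [car]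

theorem car_finite (a : PV X) : (car a).Finite := Finset.finite_toSet _

/-- the vertices of `X` are vertices of the subdivision -/
noncomputable def corner (v : V) (h : X {v}) : PV X :=
  ⟨single v 1, by rwa [support_single _ (by decide), Finset.coe_singleton], vx_single v⟩

theorem car_corner (v : V) (h : X {v}) : car (corner v h) = {v} := by
  rw [car, corner, support_single _ (by decide), Finset.coe_singleton]

theorem adj_of_ad (hX : Cx X) {K : Set V} (hK : X K) {a b : PV X} (ha : car a ⊆ K)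
    (hb : car b ⊆ K) (h : Ad a.1 b.1) : (ps X).Adj a b :=
  ⟨hX.down (union_subset ha hb) hK, h⟩

theorem car_nest (hX : Cx X) {a b : PV X} (h : (ps X).Adj a b) :
    car a ⊆ car b ∨ car b ⊆ car a := by
  obtain ⟨p, hp⟩ := hX.dim h.1
  exact loc_nest hp subset_union_left subset_union_right a.2.2 b.2.2 h.2

theorem car_sub_of_card (hX : Cx X) {a b : PV X} (h : (ps X).Adj a b)
    (hc : b.1.support.card ≤ a.1.support.card) : car b ⊆ car a := by
  rcases car_nest hX h with h | h
  · rw [car, car, Finset.eq_of_subset_of_card_le (Finset.coe_subset.1 h) hc]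
  · exact h

/-- a finite clique has a vertex whose carrier contains all the others -/
theorem exists_top (hX : Cx X) {σ : Set (PV X)} (hσ : (ps X).IsClique σ) (hf : σ.Finite)
    (hne : σ.Nonempty) : ∃ a ∈ σ, ∀ b ∈ σ, car b ⊆ car a := by
  obtain ⟨a, ha, hm⟩ := hf.exists_maximalFor (fun a => a.1.support.card) σ hne
  refine ⟨a, ha, fun b hb => ?_⟩
  by_cases e : a = b
  · rw [e]
  · refine car_sub_of_card hX (hσ ha hb e) ?_
    by_contra hlt
    exact hlt (hm hb (not_le.1 hlt).le)

theorem card_le (hX : Cx X) (σ : Finset (PV X)) (hσ : (ps X).IsClique σ) : σ.card ≤ 4 := by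
  rcases σ.eq_empty_or_nonempty with rfl | hne
  · simp
  obtain ⟨a, ha, hm⟩ := exists_top hX hσ σ.finite_toSet hne
  obtain ⟨p, hp⟩ := hX.dim (car_face a)
  have h := indep (ι := σ) (a := fun b => mapDomain p b.1.1)
    (fun b => (vx_map (hp.mono (hm b b.2))).2 b.1.2.2)
    fun b c hbc => (ad_map hp (hm b b.2) (hm c c.2)).2
      (hσ b.2 c.2 fun e => hbc (Subtype.ext e)).2
  simpa using h.fintype_card_le_finrank

theorem cx_ps (hX : Cx X) : Cx (ps X).IsClique :=
  cx_of_card (fun h1 h2 => h2.subset h1) (card_le hX)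

theorem clB_ps {V : Type} {X : Set V → Prop} (hX : Cx X) : Hyp.ClB (ps X) 4 := card_le hX

theorem car_sub_union (hX : Cx X) {a b d : PV X} (hab : (ps X).Adj a b) (had : (ps X).Adj a d)
    (hbd : ¬ (ps X).Adj b d) (hne : b ≠ d) : car a ⊆ car b ∪ car d := by
  rcases car_nest hX hab with h1 | h1
  · exact h1.trans subset_union_left
  rcases car_nest hX had with h2 | h2
  · exact h2.trans subset_union_right
  obtain ⟨p, hp⟩ := hX.dim (car_face a)
  exact (loc_C hp subset_rfl h1 h2 a.2.2 b.2.2 d.2.2 hab.2 had.2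
    (fun h => hbd (adj_of_ad hX (car_face a) h1 h2 h)) fun e => hne (PV.ext e)).1

/-- `A* = {a | car a ⊆ A}` is 2-convex -/
theorem two_convex (hX : Cx X) {A : Set V} {a b d : PV X} (hb : car b ⊆ A) (hd : car d ⊆ A)
    (hne : b ≠ d) (hbd : ¬ (ps X).Adj b d) (hab : (ps X).Adj a b) (had : (ps X).Adj a d) :
    car a ⊆ A :=
  (car_sub_union hX hab had hbd hne).trans (union_subset hb hd)


theorem sq_top (hX : Cx X) {a b c d : PV X} (hab : (ps X).Adj a b) (hbc : (ps X).Adj b c)
    (hcd : (ps X).Adj c d) (hda : (ps X).Adj d a) (hac : a ≠ c) (hbd : b ≠ d)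
    (h : b.1.support.card ≤ a.1.support.card ∧ d.1.support.card ≤ a.1.support.card) :
    (ps X).Adj a c ∨ (ps X).Adj b d := by
  rw [or_iff_not_imp_right]
  intro hn
  have h1 := car_sub_of_card hX hab h.1
  have h2 := car_sub_of_card hX hda.symm h.2
  have h3 := car_sub_union hX hab hda.symm hn hbd
  have key : ∀ K, X K → car a ⊆ K → car c ⊆ K → (ps X).Adj a c := by
    intro K hK ha hc
    obtain ⟨p, hp⟩ := hX.dim hK
    exact adj_of_ad hX hK ha hc ((loc_C hp ha (h1.trans ha) (h2.trans ha) a.2.2 b.2.2 d.2.2 hab.2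
      hda.2.symm (fun h => hn (adj_of_ad hX hK (h1.trans ha) (h2.trans ha) h))
      fun e => hbd (PV.ext e)).2 _ hc c.2.2 hbc.2 hcd.2.symm fun e => hac (PV.ext e.symm))
  rcases car_nest hX hbc with h4 | h4
  · rcases car_nest hX hcd with h5 | h5
    · exact key _ (car_face a) subset_rfl (h5.trans h2)
    · exact key _ (car_face c) (h3.trans (union_subset h4 h5)) subset_rfl
  · exact key _ (car_face a) subset_rfl (h4.trans h1)

theorem no_sq (hX : Cx X) (a b c d : PV X) (hab : (ps X).Adj a b) (hbc : (ps X).Adj b c)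
    (hcd : (ps X).Adj c d) (hda : (ps X).Adj d a) (hac : a ≠ c) (hbd : b ≠ d) :
    (ps X).Adj a c ∨ (ps X).Adj b d := by
  have : (b.1.support.card ≤ a.1.support.card ∧ d.1.support.card ≤ a.1.support.card) ∨
      (c.1.support.card ≤ b.1.support.card ∧ a.1.support.card ≤ b.1.support.card) ∨
      (d.1.support.card ≤ c.1.support.card ∧ b.1.support.card ≤ c.1.support.card) ∨
      (a.1.support.card ≤ d.1.support.card ∧ c.1.support.card ≤ d.1.support.card) := by omega
  rcases this with h | h | h | h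
  · exact sq_top hX hab hbc hcd hda hac hbd h
  · exact ((sq_top hX hbc hcd hda hab hbd hac.symm h).imp_right fun h => h.symm).symm
  · exact (sq_top hX hcd hda hab hbc hac.symm hbd.symm h).imp (fun h => h.symm) fun h => h.symm
  · exact ((sq_top hX hda hab hbc hcd hbd.symm hac h).imp_left fun h => h.symm).symm

theorem noSq_ps {V : Type} {X : Set V → Prop} (hX : Cx X) : Hyp.NoSq (ps X) := no_sq hX

/-! ### naturality -/

/-- a nondegenerate simplicial map -/
def Nd (X : Set V → Prop) (Y : Set U → Prop) (f : V → U) : Prop :=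
  ∀ s, X s → InjOn f s ∧ Y (f '' s)

variable {Y : Set U → Prop} {Z : Set W → Prop} {f : V → U} {g : U → W}

theorem Nd.id : Nd X X id := fun s hs => ⟨injOn_id _, by rwa [image_id]⟩

theorem Nd.comp (hg : Nd Y Z g) (hf : Nd X Y f) : Nd X Z (g ∘ f) := fun s hs =>
  ⟨(hg _ (hf s hs).2).1.comp (hf s hs).1 (mapsTo_image _ _), by
    rw [image_comp]; exact (hg _ (hf s hs).2).2⟩

/-- the induced map of the subdivisions -/
noncomputable def pm (hf : Nd X Y f) (a : PV X) : PV Y :=
  ⟨mapDomain f a.1, by rw [supp_map (hf _ a.2.1).1]; exact (hf _ a.2.1).2,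
    (vx_map (hf _ a.2.1).1).2 a.2.2⟩

theorem car_pm (hf : Nd X Y f) (a : PV X) : car (pm hf a) = f '' car a :=
  supp_map (hf _ a.2.1).1

theorem pm_id (a : PV X) : pm Nd.id a = a := PV.ext mapDomain_id

theorem pm_comp (hg : Nd Y Z g) (hf : Nd X Y f) (a : PV X) :
    pm (hg.comp hf) a = pm hg (pm hf a) := PV.ext mapDomain_comp

theorem pm_congr {f' : V → U} (hf : Nd X Y f) (hf' : Nd X Y f') {a : PV X}
    (h : EqOn f f' (car a)) : pm hf a = pm hf' a :=
  PV.ext (mapDomain_congr fun _ hv => h hv)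


theorem pm_adj_iff (hf : Nd X Y f) {a b : PV X} (h : X (car a ∪ car b)) :
    (ps Y).Adj (pm hf a) (pm hf b) ↔ (ps X).Adj a b := by
  have h1 := ad_map (hf _ h).1 (a := a.1) (b := b.1) subset_union_left subset_union_right
  refine ⟨fun h2 => ⟨h, h1.1 h2.2⟩, fun h2 => ⟨?_, h1.2 h2.2⟩⟩
  rw [car_pm, car_pm, ← image_union]
  exact (hf _ h).2

theorem pm_adj (hf : Nd X Y f) {a b : PV X} (h : (ps X).Adj a b) :
    (ps Y).Adj (pm hf a) (pm hf b) := (pm_adj_iff hf h.1).2 h


theorem exists_map {K : Set V} (hf : InjOn f K) {y : U →₀ Fin 8} (hy : ↑y.support ⊆ f '' K) :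
    ∃ a : V →₀ Fin 8, ↑a.support ⊆ K ∧ mapDomain f a = y := by
  rcases K.eq_empty_or_nonempty with rfl | ⟨v, -⟩
  · refine ⟨0, by simp, ?_⟩
    rw [image_empty, subset_empty_iff, Finset.coe_eq_empty, support_eq_empty] at hy
    rw [hy, mapDomain_zero]
  have : Nonempty V := ⟨v⟩
  have h1 : ∀ u ∈ f '' K, Function.invFunOn f K u ∈ K ∧ f (Function.invFunOn f K u) = u :=
    fun u hu => Function.invFunOn_pos hu
  refine ⟨mapDomain (Function.invFunOn f K) y, ?_, ?_⟩
  · rw [supp_map ((Function.invFunOn_injOn_image f K).mono hy)]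
    rintro _ ⟨u, hu, rfl⟩
    exact (h1 u (hy hu)).1
  · rw [← mapDomain_comp]
    exact (mapDomain_congr (g := id) fun u hu => (h1 u (hy hu)).2).trans mapDomain_id


/-- an isomorphism of complexes induces an isomorphism of the subdivisions -/
noncomputable def pmIso (e : V ≃ U) (h : Nd X Y e) (h' : Nd Y X e.symm) : ps X ≃g ps Y where
  toFun := pm h
  invFun := pm h'
  left_inv a := by
    rw [← pm_comp]
    exact (pm_congr _ Nd.id fun v _ => by simp).trans (pm_id a)
  right_inv a := by
    rw [← pm_comp]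
    exact (pm_congr _ Nd.id fun v _ => by simp).trans (pm_id a)
  map_rel_iff' {a b} := by
    refine ⟨fun h2 => (pm_adj_iff h ?_).1 h2, pm_adj h⟩
    have := (h' _ h2.1).2
    simp only [Equiv.coe_fn_mk, car_pm, ← image_union] at this
    rwa [Equiv.symm_image_image] at this

end Crest.Agent.N233.PS
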